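import Claimed.Agent.R316.Pack007

/-!
# Row 316, B6E-Pole: integrability against the pole `‖z‖^{-2(n+1)}` kills the 1-jet

Used in the static distortion lemma (charts.tex l.495): "Integrability with the pole `|w|^{-2(n+1)}` forces its constant and linear terms to vanish", and in
Newlander–Nirenberg (`R316/B4/Core.lean`), where the function is only real differentiable: so the REAL version `vanish_of_integrable_pole_real` is the leaf, the holomorphic version is a corollary
(already derived below).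

Proof of the real version.  `n = card ι`, real dimension `2n`, `L = fderiv ℝ v 0`.  Suppose `(v 0, L) ≠ 0`.  Two cases.
(a) `v 0 ≠ 0`: `‖v‖ ≥ ‖v 0‖/2` on a small ball `ball 0 s` (continuity at `0`).  (b) `v 0 = 0`, `L e ≠ 0` for some `e` with `‖e‖ = 1`: `‖v z - L z‖ ≤ ε ‖z‖` near `0`
(`HasFDerivAt` little-o: `hasFDerivAt_iff_isLittleO_nhds_zero`, `Asymptotics.IsLittleO.def`), `‖L y‖ ≥ ‖L e‖/2` on `S = ball e τ` (continuity of `L`), `τ ≤ 1/2`; take `ε = ‖L e‖/8`.
In both cases, for `t` small: `‖v z‖²/‖z‖^{2n+2} ≥ c' t² / (2t)^{2n+2}` on `t • S = ball (t e) (t τ)`, whose volume is `t^{2n} vol S`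
(`Measure.addHaar_smul`/`addHaar_ball_mul`), so `∫_{tS} ≥ c'' > 0` independent of `t` (in case (a) even better; one may treat (a) with the same sets and `t ≤ 1`).
The sets `t_k • S`, `t_k = λ^k t_0`, are pairwise disjoint if `λ (1+τ) < 1 - τ`.  Infinitely many disjoint sets with integral `≥ c''`
contradict integrability (`not_integrableOn_of_disjoint`: `hasSum_integral_iUnion`, or lintegral `= ∞`).
-/

set_option autoImplicit false
open scoped ContDiff ComplexOrder ComplexConjugate Topology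
open MeasureTheory Filter

namespace Claimed.Agent.R316.B6E

variable {ι : Type} [Fintype ι]

/-- abstract divergence criterion. -/
theorem not_integrableOn_of_disjoint {α : Type} [MeasurableSpace α] {μ : Measure α} {B : Set α}
    {G : α → ℝ} (hG : ∀ x ∈ B, 0 ≤ G x) {S : ℕ → Set α} (hS : ∀ k, MeasurableSet (S k))
    (hSB : ∀ k, S k ⊆ B) (hdisj : Pairwise (Function.onFun Disjoint S)) {c : ℝ} (hc : 0 < c)
    (hint : ∀ k, c ≤ ∫ x in S k, G x ∂μ) : ¬ IntegrableOn G B μ := by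
  intro hB
  set U : Set α := ⋃ k, S k with hU
  have hUm : MeasurableSet U := MeasurableSet.iUnion hS
  have hUB : U ⊆ B := Set.iUnion_subset hSB
  have hUi : IntegrableOn G U μ := hB.mono_set hUB
  have h0 : 0 ≤ᵐ[μ.restrict U] G := ae_restrict_of_forall_mem hUm fun x hx => hG x (hUB hx)
  have key : ∀ n : ℕ, (n : ℝ) * c ≤ ∫ x in U, G x ∂μ := by
    intro n
    have h1 : ∫ x in ⋃ k ∈ Finset.range n, S k, G x ∂μ = ∑ k ∈ Finset.range n, ∫ x in S k, G x ∂μ :=
      integral_biUnion_finset _ (fun k _ => hS k) (fun i _ j _ hij => hdisj hij)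
        (fun k _ => hB.mono_set (hSB k))
    have h2 : ∫ x in ⋃ k ∈ Finset.range n, S k, G x ∂μ ≤ ∫ x in U, G x ∂μ :=
      setIntegral_mono_set hUi h0
        (Filter.Eventually.of_forall (Set.iUnion₂_subset fun k _ => Set.subset_iUnion S k))
    have h3 : (n : ℝ) * c ≤ ∑ k ∈ Finset.range n, ∫ x in S k, G x ∂μ := by
      have := Finset.card_nsmul_le_sum (Finset.range n) (fun k => ∫ x in S k, G x ∂μ) c
        (fun k _ => hint k)
      simpa using this
    linarith
  obtain ⟨n, hn⟩ := exists_nat_gt ((∫ x in U, G x ∂μ) / c)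
  rw [div_lt_iff₀ hc] at hn
  linarith [key n]

/-- a non-trivial `1`-jet gives a linear lower bound on dilated balls. -/
theorem pole_lower_bound [Nonempty ι] {v : CE ι → ℂ} (hv : DifferentiableAt ℝ v 0)
    (h : ¬ (v 0 = 0 ∧ fderiv ℝ v 0 = 0)) :
    ∃ (e : CE ι) (τ c s : ℝ), ‖e‖ = 1 ∧ 0 < τ ∧ τ ≤ 1 / 2 ∧ 0 < c ∧ 0 < s ∧
      ∀ t, 0 < t → t ≤ s → ∀ z ∈ Metric.ball (t • e) (t * τ), c * t ≤ ‖v z‖ := by
  classical
  have hnz : ∀ (e : CE ι) (τ t : ℝ), ‖e‖ = 1 → τ ≤ 1 / 2 → 0 < t →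
      ∀ z ∈ Metric.ball (t • e) (t * τ), ‖z‖ < 3 / 2 * t := by
    intro e τ t he hτ ht z hz
    rw [mem_ball_iff_norm] at hz
    have h1 : ‖z‖ ≤ ‖z - t • e‖ + ‖t • e‖ := by
      have := norm_add_le (z - t • e) (t • e)
      simpa using this
    rw [norm_smul, he, Real.norm_of_nonneg ht.le] at h1
    nlinarith
  by_cases h0 : v 0 = 0
  · -- the linear part
    have hL : fderiv ℝ v 0 ≠ 0 := fun hL => h ⟨h0, hL⟩
    set L := fderiv ℝ v 0 with hLdef
    obtain ⟨x, hx⟩ : ∃ x, L x ≠ 0 := by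
      by_contra hcon
      push Not at hcon
      exact hL (ContinuousLinearMap.ext hcon)
    have hx0 : x ≠ 0 := fun hx0 => hx (by rw [hx0, map_zero])
    have hxn : 0 < ‖x‖ := norm_pos_iff.2 hx0
    set e : CE ι := (‖x‖⁻¹ : ℝ) • x with he
    have hen : ‖e‖ = 1 := by
      rw [he, norm_smul, norm_inv, norm_norm, inv_mul_cancel₀ hxn.ne']
    have hLe : L e ≠ 0 := by
      rw [he, map_smul]
      exact smul_ne_zero (inv_ne_zero hxn.ne') hx
    set b : ℝ := ‖L e‖ with hb
    have hb0 : 0 < b := norm_pos_iff.2 hLe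
    have hLn : 0 < ‖L‖ := norm_pos_iff.2 hL
    have hbL : b ≤ ‖L‖ := by
      have := L.le_opNorm e
      rwa [hen, mul_one] at this
    have hlo := (hasFDerivAt_iff_isLittleO_nhds_zero.1 hv.hasFDerivAt).def
      (c := b / 6) (by positivity)
    obtain ⟨s', hs', hs'b⟩ := Metric.eventually_nhds_iff_ball.1 hlo
    refine ⟨e, b / (2 * ‖L‖), b / 4, 2 / 3 * s', hen, by positivity, ?_, by positivity,
      by positivity, ?_⟩
    · rw [div_le_iff₀ (by positivity)]
      linarith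
    intro t ht hts z hz
    have hτ : b / (2 * ‖L‖) ≤ 1 / 2 := by
      rw [div_le_iff₀ (by positivity)]
      linarith
    have hzn := hnz e _ t hen hτ ht z hz
    have hzs : z ∈ Metric.ball (0 : CE ι) s' := by
      rw [mem_ball_zero_iff]
      linarith
    have h1 := hs'b z hzs
    simp only [zero_add, h0, sub_zero] at h1
    -- `‖v z - L z‖ ≤ b/6 ‖z‖`
    rw [mem_ball_iff_norm] at hz
    have h2 : ‖L (z - t • e)‖ ≤ ‖L‖ * (t * (b / (2 * ‖L‖))) :=
      (L.le_opNorm _).trans (mul_le_mul_of_nonneg_left hz.le hLn.le)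
    have h3 : ‖L‖ * (t * (b / (2 * ‖L‖))) = t * b / 2 := by
      field_simp
    rw [h3] at h2
    have h4 : L z = t • L e + L (z - t • e) := by
      rw [← map_smul, ← map_add]
      congr 1
      abel
    have h5 : t * b ≤ ‖L z‖ + t * b / 2 := by
      have : ‖t • L e‖ ≤ ‖L z‖ + ‖L (z - t • e)‖ := by
        have e1 : t • L e = L z - L (z - t • e) := by rw [h4]; abel
        rw [e1]
        exact norm_sub_le _ _
      rw [norm_smul, Real.norm_of_nonneg ht.le] at this
      linarith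
    have h6 : ‖L z‖ ≤ ‖v z‖ + ‖v z - L z‖ := by
      have e1 : L z = v z - (v z - L z) := by abel
      calc ‖L z‖ = ‖v z - (v z - L z)‖ := by rw [← e1]
        _ ≤ _ := norm_sub_le _ _
    have h7 : b / 6 * ‖z‖ ≤ b / 6 * (3 / 2 * t) := mul_le_mul_of_nonneg_left hzn.le (by positivity)
    nlinarith
  · -- the constant part
    obtain ⟨i⟩ := ‹Nonempty ι›
    set e : CE ι := EuclideanSpace.single i 1 with he
    have hen : ‖e‖ = 1 := by simp [he]
    have hb0 : 0 < ‖v 0‖ := norm_pos_iff.2 h0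
    have hc : ∀ᶠ z in 𝓝 (0 : CE ι), ‖v 0‖ / 2 < ‖v z‖ :=
      (hv.continuousAt.norm).eventually (lt_mem_nhds (by linarith))
    obtain ⟨s', hs', hs'b⟩ := Metric.eventually_nhds_iff_ball.1 hc
    refine ⟨e, 1 / 2, ‖v 0‖ / 2, min 1 (2 / 3 * s'), hen, by norm_num, le_rfl, by positivity,
      by positivity, ?_⟩
    intro t ht hts z hz
    have hzn := hnz e _ t hen le_rfl ht z hz
    have ht1 : t ≤ 1 := hts.trans (min_le_left _ _)
    have ht2 : t ≤ 2 / 3 * s' := hts.trans (min_le_right _ _)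
    have hzs : z ∈ Metric.ball (0 : CE ι) s' := by
      rw [mem_ball_zero_iff]
      linarith
    have h1 := hs'b z hzs
    have h2 : ‖v 0‖ / 2 * t ≤ ‖v 0‖ / 2 * 1 := mul_le_mul_of_nonneg_left ht1 (by positivity)
    linarith

/-- points of a dilated ball have comparable norm. -/
theorem norm_mem_of_mem_dilated_ball {e : CE ι} {τ t : ℝ} (he : ‖e‖ = 1) (hτ : τ ≤ 1 / 2)
    (ht : 0 < t) {z : CE ι} (hz : z ∈ Metric.ball (t • e) (t * τ)) :
    t / 2 < ‖z‖ ∧ ‖z‖ < 3 / 2 * t := by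
  rw [mem_ball_iff_norm] at hz
  have h0 : t * τ ≤ t * (1 / 2) := mul_le_mul_of_nonneg_left hτ ht.le
  have hte : ‖t • e‖ = t := by rw [norm_smul, he, Real.norm_of_nonneg ht.le, mul_one]
  constructor
  · have h1 : ‖t • e‖ ≤ ‖z‖ + ‖z - t • e‖ := by
      have e1 : t • e = z - (z - t • e) := by abel
      calc ‖t • e‖ = ‖z - (z - t • e)‖ := by rw [← e1]
        _ ≤ _ := norm_sub_le _ _
    rw [hte] at h1
    linarith
  · have h1 : ‖z‖ ≤ ‖z - t • e‖ + ‖t • e‖ := by
      have := norm_add_le (z - t • e) (t • e)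
      simpa using this
    rw [hte] at h1
    linarith

/-- **the pole lemma, real version.** -/
theorem vanish_of_integrable_pole_real [Nonempty ι] {δ : ℝ} (hδ : 0 < δ) {v : CE ι → ℂ}
    (hv : DifferentiableAt ℝ v 0)
    (hint : IntegrableOn (fun z => ‖v z‖ ^ 2 / ‖z‖ ^ (2 * (Fintype.card ι + 1))) (Metric.ball 0 δ)) :
    v 0 = 0 ∧ fderiv ℝ v 0 = 0 := by
  by_contra h
  obtain ⟨e, τ, c, s, hen, hτ0, hτ, hc, hs, hlow⟩ := pole_lower_bound hv h
  set n : ℕ := Fintype.card ι with hn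
  have hdim : Module.finrank ℝ (CE ι) = 2 * n := by
    rw [finrank_real_of_complex]; simp [hn]
  set t₀ : ℝ := min s (δ / 2) with ht₀
  have ht₀0 : 0 < t₀ := by positivity
  set T : ℕ → ℝ := fun k => t₀ * (1 / 3) ^ k with hT
  have hT0 : ∀ k, 0 < T k := fun k => by positivity
  have hTle : ∀ k, T k ≤ t₀ := fun k =>
    mul_le_of_le_one_right ht₀0.le (pow_le_one₀ (by norm_num) (by norm_num))
  have hTanti : ∀ j k, j < k → 3 * T k ≤ T j := by
    intro j k hjk
    have h1 : ((1 : ℝ) / 3) ^ k ≤ (1 / 3) ^ (j + 1) :=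
      pow_le_pow_of_le_one (by norm_num) (by norm_num) hjk
    have h2 : t₀ * (1 / 3) ^ k ≤ t₀ * (1 / 3) ^ (j + 1) := mul_le_mul_of_nonneg_left h1 ht₀0.le
    have h3 : t₀ * ((1 : ℝ) / 3) ^ (j + 1) = t₀ * (1 / 3) ^ j / 3 := by rw [pow_succ]; ring
    simp only [hT]
    linarith
  set S : ℕ → Set (CE ι) := fun k => Metric.ball (T k • e) (T k * τ) with hS
  set w₁ : ℝ := (volume (Metric.ball (0 : CE ι) 1)).toReal with hwdef
  have hw0 : 0 < w₁ :=
    ENNReal.toReal_pos (Metric.measure_ball_pos _ _ one_pos).ne' measure_ball_lt_top.ne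
  have hSB : ∀ k, S k ⊆ Metric.ball 0 δ := by
    intro k z hz
    have h1 := (norm_mem_of_mem_dilated_ball hen hτ (hT0 k) hz).2
    have h2 : t₀ ≤ δ / 2 := min_le_right _ _
    rw [mem_ball_zero_iff]
    linarith [hTle k]
  refine not_integrableOn_of_disjoint (B := Metric.ball 0 δ) (fun x _ => by positivity) (S := S)
    (fun k => measurableSet_ball) hSB ?_ (c := c ^ 2 * τ ^ (2 * n) * w₁ / 2 ^ (2 * (n + 1)))
    (by positivity) ?_ hint
  · refine (pairwise_disjoint_on S).2 fun j k hjk => ?_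
    rw [Set.disjoint_left]
    intro z hzj hzk
    have h1 := (norm_mem_of_mem_dilated_ball hen hτ (hT0 j) hzj).1
    have h2 := (norm_mem_of_mem_dilated_ball hen hτ (hT0 k) hzk).2
    linarith [hTanti j k hjk]
  · intro k
    set t : ℝ := T k with ht
    have ht0 : 0 < t := hT0 k
    set m : ℝ := (c * t) ^ 2 / (2 * t) ^ (2 * (n + 1)) with hm
    have hvol : volume.real (S k) = (t * τ) ^ (2 * n) * w₁ := by
      rw [Measure.real, hS, Measure.addHaar_ball volume _ (by positivity), hdim, ENNReal.toReal_mul,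
        ENNReal.toReal_ofReal (by positivity)]
    have h1 : ∫ _z in S k, m ≤ ∫ z in S k, ‖v z‖ ^ 2 / ‖z‖ ^ (2 * (n + 1)) := by
      refine setIntegral_mono_on (integrableOn_const measure_ball_lt_top.ne) (hint.mono_set (hSB k))
        measurableSet_ball fun z hz => ?_
      obtain ⟨h2, h3⟩ := norm_mem_of_mem_dilated_ball hen hτ ht0 hz
      have h4 := hlow t ht0 ((hTle k).trans (min_le_left _ _)) z hz
      have hz0 : 0 < ‖z‖ := by linarith
      exact div_le_div₀ (by positivity) (pow_le_pow_left₀ (by positivity) h4 2) (by positivity)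
        (pow_le_pow_left₀ hz0.le (by linarith) _)
    rw [setIntegral_const, hvol, smul_eq_mul] at h1
    refine le_trans (le_of_eq ?_) h1
    rw [hm]
    have e1 : (2 * t) ^ (2 * (n + 1)) = 2 ^ (2 * (n + 1)) * (t ^ (2 * n) * t ^ 2) := by
      rw [mul_pow, mul_add, pow_add t]
    rw [e1, mul_pow t τ]
    field_simp

/-- **the pole lemma.** -/
theorem vanish_of_integrable_pole [Nonempty ι] {δ : ℝ} (hδ : 0 < δ) {v : CE ι → ℂ}
    (hv : DifferentiableOn ℂ v (Metric.ball 0 δ))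
    (hint : IntegrableOn (fun z => ‖v z‖ ^ 2 / ‖z‖ ^ (2 * (Fintype.card ι + 1))) (Metric.ball 0 δ)) :
    v 0 = 0 ∧ fderiv ℂ v 0 = 0 := by
  have hd : DifferentiableAt ℂ v 0 := hv.differentiableAt (Metric.ball_mem_nhds 0 hδ)
  obtain ⟨h1, h2⟩ := vanish_of_integrable_pole_real hδ (hd.restrictScalars ℝ) hint
  refine ⟨h1, ?_⟩
  have h3 : fderiv ℝ v 0 = (fderiv ℂ v 0).restrictScalars ℝ := hd.fderiv_restrictScalars ℝ
  ext x
  have h4 : (fderiv ℝ v 0) x = 0 := by rw [h2]; rfl
  rw [h3] at h4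
  simpa using h4

end Claimed.Agent.R316.B6E
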