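import Claimed.Agent.R316.B4.Core
import Claimed.Agent.R316.B4.FrameInt
import Claimed.Agent.R316.B4.Regular
import Claimed.Agent.R316.Pack031

/-!
# Row 316, B6E-Main: Hörmander's theorem on Euclidean balls (and on `ℂ^ι`) — the statements for the users

* `hormander_ball`: smooth psh weight `φ` on `ball 0 R`, smooth `∂̄`-closed `g`, a function `H ≥ 0` with
  `|⟨g(z), v⟩|² ≤ H(z) · (Levi form of φ)(v,v)` (Demailly's form of `|g|²_{i∂∂̄φ} ≤ H`; no inverse matrix, the Levi form may degenerate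
  where `g = 0`) and `∫ H e^{-φ} < ∞`.  Then there is a smooth `u` with `∂̄u = g`, `∫ |u|² e^{-φ} ≤ ∫ H e^{-φ}`.
* `hormander_limit`: singular / non smooth weights through ANY approximation: `Ω = ⋃ ball 0 (r ν)` (so `Ω` is a ball or the whole space),
  smooth psh `φ_ν` on `ball 0 (r ν)`, locally uniformly bounded above, `e^{φ_ν} → W` pointwise on `Ω` (`W = e^{φ}`, `W = 0` at poles),
  `∫ H_ν e^{-φ_ν} ≤ C`.  Then `u` smooth on `Ω`, `∂̄u = g`, `∫_Ω |u|²/W ≤ C`.  No monotonicity of `φ_ν` is needed.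
* `dom_of_lower_bound`: `levi φ ≥ c·1`, `c > 0` ⇒ `H = |g|²/c` is admissible.

## Architecture (since 14 Oct 11:00Z): the flat theory is the case `a = 0` of the frame theory of `R316/B4`
The functional analysis (three weights, density, projection, Riesz, interior regularity) is proved ONCE, for the operators `Z̄_j = ∂̄_j + ∑ a_{jk} ∂_k` of `R316/B4`.
Section `Flat` below is the dictionary for `a = 0` (`Zb a0 = dzb`, `leviF a0 α0 = levi`, `DualEstF a0 ↔ DualEst`, `WeakZb a0 ↔ WeakDbar`); the BKH constant for `a = 0` is `0`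
by the sorry-free flat identity `B6E.bkh_inequality`, so no constant is lost.  The only leaf of this file is `exists_smooth_representative` (patching).
-/

set_option autoImplicit false

section Flat
set_option linter.unusedSectionVars false
open scoped ContDiff ComplexOrder ComplexConjugate Topology
open MeasureTheory
open Claimed.Agent.R316.B6E (IsTest IsTestForm cx L2w)

namespace Claimed.Agent.R316.B4

variable {ι : Type} [Fintype ι] [DecidableEq ι]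

/-- the flat coefficients. -/
def a0 : ι → ι → CE ι → ℂ := fun _ _ _ => 0

/-- the flat structure functions. -/
def α0 : ι → ι → ι → CE ι → ℂ := fun _ _ _ _ => 0

theorem Zb_a0 (j : ι) (u : CE ι → ℂ) (z : CE ι) : Zb a0 j u z = dzb j u z := Zb_zero_coef

theorem Zf_a0 (j : ι) (u : CE ι → ℂ) (z : CE ι) : Zf a0 j u z = dz j u z := Zf_zero_coef

theorem sg_a0 (j : ι) (z : CE ι) : sg (a0 : ι → ι → CE ι → ℂ) j z = 0 := by
  unfold sg a0
  simp [dzb_const]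

theorem Zbt_a0 (j : ι) (w : CE ι → ℂ) (z : CE ι) : Zbt a0 j w z = - dzb j w z := by
  unfold Zbt
  rw [Zb_a0, sg_a0]
  simp

theorem gradF_a0 (p : CE ι → ℝ) (z : CE ι) : gradF a0 p z = grad10 p z := by
  funext j
  exact Zf_a0 j _ z

theorem dlF_a0 (p : CE ι → ℝ) (j : ι) (w : CE ι → ℂ) (z : CE ι) :
    dlF a0 p j w z = B6E.dl p j w z := by
  unfold dlF B6E.dl
  rw [Zf_a0, gradF_a0, sg_a0]
  simp

theorem curlSqF_a0 (F : ι → CE ι → ℂ) (z : CE ι) : curlSqF a0 F z = B6E.curlSq F z := by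
  unfold curlSqF B6E.curlSq
  simp only [Zb_a0]

theorem leviF_a0 (p : CE ι → ℝ) (z : CE ι) : leviF a0 α0 p z = levi p z := leviF_zero p

theorem contDiff_a0 (j k : ι) : ContDiff ℝ ∞ (a0 j k : CE ι → ℂ) := contDiff_const

theorem isFrame_a0 (Ω : Set (CE ι)) : IsFrame Ω a0 α0 α0 := by
  refine ⟨contDiff_a0, fun _ _ _ => contDiffOn_const, fun _ _ _ => contDiffOn_const, ?_, ?_, ?_⟩
  · intro z _ j k l
    rw [Zb_a0, Zb_a0]
    show dzb j (fun _ => (0 : ℂ)) z = dzb k (fun _ => (0 : ℂ)) z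
    rw [dzb_const, dzb_const]
  · intro z _ j k l
    rw [Zf_a0]
    show dz j (fun _ => (0 : ℂ)) z = 0 + ∑ m, (0 : ℂ) * 0
    rw [dz_const]
    simp
  · intro z _ j k l
    rw [Zb_a0]
    show - dzb k (fun _ => conj (0 : ℂ)) z = ∑ m, (0 : ℂ) * conj (0 : ℂ) + 0
    rw [dzb_const]
    simp

theorem bkhConst_a0 {Ω : Set (CE ι)} (hΩ : IsOpen Ω) : BKHConst Ω a0 α0 0 := by
  intro p hp F hF
  simp only [leviF_a0, dlF_a0, curlSqF_a0, zero_mul, sub_zero]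
  exact B6E.bkh_inequality hΩ hp hF

theorem dualEstF_a0_iff {Ω : Set (CE ι)} {g : ι → CE ι → ℂ} {W : CE ι → ℝ} {C : ℝ} :
    DualEstF Ω a0 g W C ↔ B6E.DualEst Ω g W C := by
  unfold DualEstF B6E.DualEst
  simp only [Zbt_a0, Finset.sum_neg_distrib, norm_neg]

theorem weakZb_a0_iff {Ω : Set (CE ι)} {u : CE ι → ℂ} {g : ι → CE ι → ℂ} :
    WeakZb Ω a0 u g ↔ B6E.WeakDbar Ω u g := by
  unfold WeakZb B6E.WeakDbar
  simp only [Zbt_a0, mul_neg, integral_neg]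
  constructor
  · intro h w hw j
    rw [← h w hw j, neg_neg]
  · intro h w hw j
    rw [h w hw j, neg_neg]

theorem qf_leviF_a0_normSq_nonneg (z : CE ι) (v : ι → ℂ) :
    0 ≤ qf (leviF a0 α0 (fun y : CE ι => ‖y‖ ^ 2) z) v := by
  rw [leviF_a0, B6E.levi_normSq, B6E.qf_one]
  positivity

theorem gradF_a0_normSq_le (z : CE ι) :
    ∑ j, ‖gradF a0 (fun y : CE ι => ‖y‖ ^ 2) z j‖ ^ 2 ≤ 4 * ‖z‖ ^ 2 := by
  rw [gradF_a0]
  simp only [grad10_normSq, RCLike.norm_conj]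
  rw [← EuclideanSpace.norm_sq_eq]
  nlinarith [sq_nonneg ‖z‖]

theorem small_a0 (z : CE ι) : ∑ j : ι, ∑ k : ι, ‖(a0 j k z : ℂ)‖ ^ 2 ≤ 1 / 4 := by
  simp [a0]

end Claimed.Agent.R316.B4

end Flat

open scoped ContDiff ComplexOrder ComplexConjugate Topology
open MeasureTheory Filter

namespace Claimed.Agent.R316.B6E

variable {ι : Type} [Fintype ι] [DecidableEq ι]

/-- **Hörmander's estimate in dual form, smooth psh weight on a ball** (`B4.dualEstF_ball_smooth` for `a = 0`, `C = 0`). -/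
theorem dualEst_ball_smooth {R : ℝ} (hR : 0 < R) {φ : CE ι → ℝ}
    (hφ : ContDiffOn ℝ ∞ φ (Metric.ball 0 R))
    (hpsh : ∀ z ∈ Metric.ball (0 : CE ι) R, (levi φ z).PosSemidef)
    {g : ι → CE ι → ℂ} (hg : ∀ j, ContDiffOn ℝ ∞ (g j) (Metric.ball 0 R))
    (hclosed : ∀ z ∈ Metric.ball (0 : CE ι) R, ∀ j k, dzb j (g k) z = dzb k (g j) z)
    {H : CE ι → ℝ} (hH0 : ∀ z ∈ Metric.ball (0 : CE ι) R, 0 ≤ H z)
    (hHint : IntegrableOn (fun z => H z * Real.exp (-φ z)) (Metric.ball 0 R))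
    (hdom : ∀ z ∈ Metric.ball (0 : CE ι) R, ∀ v : ι → ℂ,
      ‖∑ j, g j z * conj (v j)‖ ^ 2 ≤ H z * qf (levi φ z) v) :
    DualEst (Metric.ball 0 R) g (fun z => Real.exp (φ z))
      (∫ z in Metric.ball (0 : CE ι) R, H z * Real.exp (-φ z)) := by
  rw [← B4.dualEstF_a0_iff]
  refine B4.dualEstF_ball_smooth hR (B4.isFrame_a0 _) (C := 0)
    (fun r _ _ => B4.bkhConst_a0 Metric.isOpen_ball)
    (fun z _ v => B4.qf_leviF_a0_normSq_nonneg z v) (fun z _ => B4.gradF_a0_normSq_le z) hφ ?_ hg ?_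
    hH0 hHint ?_
  · intro z hz v
    rw [B4.leviF_a0, zero_mul, sub_zero]
    exact qf_nonneg (hpsh z hz) v
  · intro z hz j k
    rw [B4.Zb_a0, B4.Zb_a0]
    exact hclosed z hz j k
  · intro z hz v
    rw [B4.leviF_a0, zero_mul, sub_zero]
    exact hdom z hz v

/-- **Riesz step** (`B4.exists_weak_solutionF` for `a = 0`). -/
theorem exists_weak_solution {Ω : Set (CE ι)} (hΩ : IsOpen Ω) {g : ι → CE ι → ℂ}
    (hg : ∀ j, LocallyIntegrableOn (g j) Ω) {W : CE ι → ℝ} (hW0 : ∀ z ∈ Ω, 0 ≤ W z)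
    (hWm : AEStronglyMeasurable W (volume.restrict Ω))
    (hWb : ∀ K ⊆ Ω, IsCompact K → ∃ M, ∀ z ∈ K, W z ≤ M) {C : ℝ} (hC : 0 ≤ C)
    (hD : DualEst Ω g W C) :
    ∃ u : CE ι → ℂ, AEStronglyMeasurable u (volume.restrict Ω) ∧
      (∀ K ⊆ Ω, IsCompact K → MemLp u 2 (volume.restrict K)) ∧
      IntegrableOn (fun z => ‖u z‖ ^ 2 / W z) Ω ∧ ∫ z in Ω, ‖u z‖ ^ 2 / W z ≤ C ∧
      WeakDbar Ω u g := by
  obtain ⟨u, h1, h2, h3, h4, h5⟩ := B4.exists_weak_solutionF hΩ B4.contDiff_a0 hg hW0 hWm hWb hC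
    (B4.dualEstF_a0_iff.2 hD)
  exact ⟨u, h1, h2, h3, h4, B4.weakZb_a0_iff.1 h5⟩

/-- local smooth representative (`B4.weak_Zb_regular` for `a = 0` on a small ball). -/
theorem regular_local {Ω : Set (CE ι)} (hΩ : IsOpen Ω) {u : CE ι → ℂ}
    (hu : ∀ K ⊆ Ω, IsCompact K → MemLp u 2 (volume.restrict K))
    {g : ι → CE ι → ℂ} (hg : ∀ j, ContDiffOn ℝ ∞ (g j) Ω)
    (hw : WeakDbar Ω u g) {x₀ : CE ι} (hx₀ : x₀ ∈ Ω) :
    ∃ (r : ℝ) (U : CE ι → ℂ), 0 < r ∧ Metric.ball x₀ r ⊆ Ω ∧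
      ContDiffOn ℝ ∞ U (Metric.ball x₀ r) ∧
      ∀ᵐ z ∂(volume.restrict (Metric.ball x₀ r)), U z = u z := by
  obtain ⟨r, hr, hsub⟩ := Metric.nhds_basis_closedBall.mem_iff.1 (hΩ.mem_nhds hx₀)
  have hB : Metric.ball x₀ r ⊆ Ω := Metric.ball_subset_closedBall.trans hsub
  have hu2 : MemLp u 2 (volume.restrict (Metric.ball x₀ r)) :=
    (hu _ hsub (isCompact_closedBall x₀ r)).mono_measure
      (Measure.restrict_mono Metric.ball_subset_closedBall le_rfl)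
  have hw' : B4.WeakZb (Metric.ball x₀ r) B4.a0 u g :=
    B4.weakZb_a0_iff.2 fun w hw' j => hw w (hw'.mono hB) j
  obtain ⟨ũ, h1, h2, -⟩ := B4.weak_Zb_regular Metric.isOpen_ball B4.contDiff_a0
    (fun z _ => B4.small_a0 z) hu2 (fun j => (hg j).mono hB) hw'
  exact ⟨r, ũ, hr, hB, h1, h2⟩

/-- **LEAF B6E-Regular (#4959): patching of local smooth representatives.**
Choose for every `x ∈ Ω` a ball `B_x ∋ x` and `U_x` smooth on `B_x`, `U_x = u` a.e. on `B_x`; `ũ(x) := U_x(x)` (`0` off `Ω`).  On the open set `B_x ∩ B_y` the continuous functions `U_x, U_y` agree a.e.,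
hence everywhere (`MeasureTheory.Measure.eqOn_open_of_ae_eq`), so `ũ = U_x` on `B_x`: smooth (`ContDiffOn.congr`, `contDiffOn_of_locally_contDiffOn` / `ContDiffAt`).
`ũ = u` a.e. on `Ω` by Lindelöf (`TopologicalSpace.isOpen_iUnion_countable` / `countable_cover_nhds`, `ae_restrict_iUnion_iff`, `Measure.restrict_mono`). -/
theorem exists_smooth_representative {Ω : Set (CE ι)} (hΩ : IsOpen Ω) {u : CE ι → ℂ}
    (h : ∀ x₀ ∈ Ω, ∃ (r : ℝ) (U : CE ι → ℂ), 0 < r ∧ Metric.ball x₀ r ⊆ Ω ∧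
      ContDiffOn ℝ ∞ U (Metric.ball x₀ r) ∧
      ∀ᵐ z ∂(volume.restrict (Metric.ball x₀ r)), U z = u z) :
    ∃ ũ : CE ι → ℂ, ContDiffOn ℝ ∞ ũ Ω ∧ ∀ᵐ z ∂(volume.restrict Ω), ũ z = u z := by
  choose! ρ U hρ hρΩ hU1 hU2 using h
  have claim : ∀ x ∈ Ω, ∀ y ∈ Metric.ball x (ρ x), U y y = U x y := by
    intro x hx y hy
    have hyΩ : y ∈ Ω := hρΩ x hx hy
    have hO : IsOpen (Metric.ball x (ρ x) ∩ Metric.ball y (ρ y)) :=
      Metric.isOpen_ball.inter Metric.isOpen_ball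
    have hyO : y ∈ Metric.ball x (ρ x) ∩ Metric.ball y (ρ y) := ⟨hy, Metric.mem_ball_self (hρ y hyΩ)⟩
    have h1 : ContinuousOn (U y) (Metric.ball x (ρ x) ∩ Metric.ball y (ρ y)) :=
      (hU1 y hyΩ).continuousOn.mono Set.inter_subset_right
    have h2 : ContinuousOn (U x) (Metric.ball x (ρ x) ∩ Metric.ball y (ρ y)) :=
      (hU1 x hx).continuousOn.mono Set.inter_subset_left
    refine Measure.eqOn_open_of_ae_eq (μ := volume) ?_ hO h1 h2 hyO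
    filter_upwards [ae_restrict_of_ae_restrict_of_subset Set.inter_subset_right (hU2 y hyΩ),
      ae_restrict_of_ae_restrict_of_subset Set.inter_subset_left (hU2 x hx)] with z hz1 hz2
    rw [hz1, hz2]
  refine ⟨fun y => U y y, ?_, ?_⟩
  · intro x hx
    have h1 : ContDiffAt ℝ ∞ (U x) x := (hU1 x hx).contDiffAt (Metric.ball_mem_nhds x (hρ x hx))
    have h2 : (fun y => U y y) =ᶠ[𝓝 x] U x := by
      filter_upwards [Metric.ball_mem_nhds x (hρ x hx)] with y hy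
      exact claim x hx y hy
    exact (h1.congr_of_eventuallyEq h2).contDiffWithinAt
  · obtain ⟨T, hT, hTU⟩ := TopologicalSpace.isOpen_iUnion_countable
      (fun x : Ω => Metric.ball (x : CE ι) (ρ x)) (fun _ => Metric.isOpen_ball)
    have hsub : Ω ⊆ ⋃ i ∈ T, Metric.ball (i : CE ι) (ρ i) := by
      rw [hTU]
      intro x hx
      exact Set.mem_iUnion.2 ⟨⟨x, hx⟩, Metric.mem_ball_self (hρ x hx)⟩
    refine ae_restrict_of_ae_restrict_of_subset hsub ?_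
    rw [ae_restrict_biUnion_iff _ hT]
    intro i _
    filter_upwards [hU2 i i.2, ae_restrict_mem measurableSet_ball] with y hy1 hy2
    rw [claim i i.2 y hy2, hy1]

/-- a smooth weak solution is a classical solution. -/
theorem dzb_eq_of_weakDbar {Ω : Set (CE ι)} (hΩ : IsOpen Ω) {u : CE ι → ℂ}
    (hu : ContDiffOn ℝ ∞ u Ω) {g : ι → CE ι → ℂ} (hg : ∀ j, ContinuousOn (g j) Ω)
    (hw : WeakDbar Ω u g) : ∀ z ∈ Ω, ∀ j, dzb j u z = g j z := by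
  intro z hz j
  rw [← B4.Zb_a0]
  exact B4.Zb_eq_of_weakZb hΩ B4.contDiff_a0 hu hg (B4.weakZb_a0_iff.2 hw) z hz j

/-- weak solutions only depend on the a.e. class on `Ω`. -/
theorem WeakDbar.congr_ae {Ω : Set (CE ι)} {u u' : CE ι → ℂ} {g : ι → CE ι → ℂ}
    (h : ∀ᵐ z ∂(volume.restrict Ω), u' z = u z) (hw : WeakDbar Ω u g) : WeakDbar Ω u' g :=
  B4.weakZb_a0_iff.1 (B4.WeakZb.congr_ae h (B4.weakZb_a0_iff.2 hw))

/-- **interior regularity for `∂̄`.** -/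
theorem weak_dbar_regular {Ω : Set (CE ι)} (hΩ : IsOpen Ω) {u : CE ι → ℂ}
    (hu : ∀ K ⊆ Ω, IsCompact K → MemLp u 2 (volume.restrict K))
    {g : ι → CE ι → ℂ} (hg : ∀ j, ContDiffOn ℝ ∞ (g j) Ω)
    (hw : WeakDbar Ω u g) :
    ∃ ũ : CE ι → ℂ, ContDiffOn ℝ ∞ ũ Ω ∧ (∀ᵐ z ∂(volume.restrict Ω), ũ z = u z) ∧
      ∀ z ∈ Ω, ∀ j, dzb j ũ z = g j z := by
  obtain ⟨ũ, h1, h2⟩ := exists_smooth_representative hΩ
    (fun x₀ hx₀ => regular_local hΩ hu hg hw hx₀)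
  exact ⟨ũ, h1, h2, dzb_eq_of_weakDbar hΩ h1 (fun j => (hg j).continuousOn) (hw.congr_ae h2)⟩

/-- from the dual estimate to a smooth solution. -/
theorem exists_smooth_solution {Ω : Set (CE ι)} (hΩ : IsOpen Ω) {g : ι → CE ι → ℂ}
    (hg : ∀ j, ContDiffOn ℝ ∞ (g j) Ω) {W : CE ι → ℝ} (hW0 : ∀ z ∈ Ω, 0 ≤ W z)
    (hWm : AEStronglyMeasurable W (volume.restrict Ω))
    (hWb : ∀ K ⊆ Ω, IsCompact K → ∃ M, ∀ z ∈ K, W z ≤ M) {C : ℝ} (hC : 0 ≤ C)
    (hD : DualEst Ω g W C) :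
    ∃ u : CE ι → ℂ, ContDiffOn ℝ ∞ u Ω ∧ (∀ z ∈ Ω, ∀ j, dzb j u z = g j z) ∧
      IntegrableOn (fun z => ‖u z‖ ^ 2 / W z) Ω ∧ ∫ z in Ω, ‖u z‖ ^ 2 / W z ≤ C := by
  have hgl : ∀ j, LocallyIntegrableOn (g j) Ω := fun j =>
    (hg j).continuousOn.locallyIntegrableOn hΩ.measurableSet
  obtain ⟨u, -, hul, hui, huC, huw⟩ := exists_weak_solution hΩ hgl hW0 hWm hWb hC hD
  obtain ⟨ũ, h1, h2, h3⟩ := weak_dbar_regular hΩ hul hg huw
  have hae : (fun z => ‖ũ z‖ ^ 2 / W z) =ᵐ[volume.restrict Ω] fun z => ‖u z‖ ^ 2 / W z := by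
    filter_upwards [h2] with z hz
    rw [hz]
  refine ⟨ũ, h1, h3, ?_, ?_⟩
  · exact (integrable_congr hae).2 hui
  · rw [integral_congr_ae hae]
    exact huC

/-- **Hörmander's theorem on a ball, smooth psh weight.** -/
theorem hormander_ball {R : ℝ} (hR : 0 < R) {φ : CE ι → ℝ}
    (hφ : ContDiffOn ℝ ∞ φ (Metric.ball 0 R))
    (hpsh : ∀ z ∈ Metric.ball (0 : CE ι) R, (levi φ z).PosSemidef)
    {g : ι → CE ι → ℂ} (hg : ∀ j, ContDiffOn ℝ ∞ (g j) (Metric.ball 0 R))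
    (hclosed : ∀ z ∈ Metric.ball (0 : CE ι) R, ∀ j k, dzb j (g k) z = dzb k (g j) z)
    {H : CE ι → ℝ} (hH0 : ∀ z ∈ Metric.ball (0 : CE ι) R, 0 ≤ H z)
    (hHint : IntegrableOn (fun z => H z * Real.exp (-φ z)) (Metric.ball 0 R))
    (hdom : ∀ z ∈ Metric.ball (0 : CE ι) R, ∀ v : ι → ℂ,
      ‖∑ j, g j z * conj (v j)‖ ^ 2 ≤ H z * qf (levi φ z) v) :
    ∃ u : CE ι → ℂ, ContDiffOn ℝ ∞ u (Metric.ball 0 R) ∧
      (∀ z ∈ Metric.ball (0 : CE ι) R, ∀ j, dzb j u z = g j z) ∧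
      IntegrableOn (fun z => ‖u z‖ ^ 2 * Real.exp (-φ z)) (Metric.ball 0 R) ∧
      ∫ z in Metric.ball (0 : CE ι) R, ‖u z‖ ^ 2 * Real.exp (-φ z)
        ≤ ∫ z in Metric.ball (0 : CE ι) R, H z * Real.exp (-φ z) := by
  have hD := dualEst_ball_smooth hR hφ hpsh hg hclosed hH0 hHint hdom
  have hcont : ContinuousOn (fun z => Real.exp (φ z)) (Metric.ball 0 R) :=
    Real.continuous_exp.comp_continuousOn hφ.continuousOn
  have hC : 0 ≤ ∫ z in Metric.ball (0 : CE ι) R, H z * Real.exp (-φ z) :=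
    setIntegral_nonneg Metric.isOpen_ball.measurableSet
      fun z hz => mul_nonneg (hH0 z hz) (Real.exp_pos _).le
  obtain ⟨u, h1, h2, h3, h4⟩ := exists_smooth_solution Metric.isOpen_ball hg
    (W := fun z => Real.exp (φ z)) (fun z _ => (Real.exp_pos _).le)
    (hcont.aestronglyMeasurable Metric.isOpen_ball.measurableSet)
    (fun K hK hKc => by
      obtain ⟨M, hM⟩ := (hKc.image_of_continuousOn (hcont.mono hK)).bddAbove
      exact ⟨M, fun z hz => hM ⟨z, hz, rfl⟩⟩) hC hD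
  have he : (fun z => ‖u z‖ ^ 2 / Real.exp (φ z)) = fun z => ‖u z‖ ^ 2 * Real.exp (-φ z) := by
    funext z
    rw [Real.exp_neg, div_eq_mul_inv]
  rw [he] at h3 h4
  exact ⟨u, h1, h2, h3, h4⟩

/-- **Hörmander's theorem with weights obtained as limits** (singular weights, continuous psh weights, `Ω = ℂ^ι`). -/
theorem hormander_limit {Ω : Set (CE ι)} (hΩ : IsOpen Ω) {g : ι → CE ι → ℂ}
    (hg : ∀ j, ContDiffOn ℝ ∞ (g j) Ω)
    (hclosed : ∀ z ∈ Ω, ∀ j k, dzb j (g k) z = dzb k (g j) z)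
    {r : ℕ → ℝ} (hr : ∀ ν, 0 < r ν) (hsub : ∀ ν, Metric.ball (0 : CE ι) (r ν) ⊆ Ω)
    (hexh : ∀ K ⊆ Ω, IsCompact K → ∀ᶠ ν in atTop, K ⊆ Metric.ball (0 : CE ι) (r ν))
    {φ : ℕ → CE ι → ℝ} (hφ : ∀ ν, ContDiffOn ℝ ∞ (φ ν) (Metric.ball 0 (r ν)))
    (hpsh : ∀ ν, ∀ z ∈ Metric.ball (0 : CE ι) (r ν), (levi (φ ν) z).PosSemidef)
    {H : ℕ → CE ι → ℝ} (hH0 : ∀ ν, ∀ z ∈ Metric.ball (0 : CE ι) (r ν), 0 ≤ H ν z)
    (hHint : ∀ ν, IntegrableOn (fun z => H ν z * Real.exp (-φ ν z)) (Metric.ball 0 (r ν)))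
    (hdom : ∀ ν, ∀ z ∈ Metric.ball (0 : CE ι) (r ν), ∀ v : ι → ℂ,
      ‖∑ j, g j z * conj (v j)‖ ^ 2 ≤ H ν z * qf (levi (φ ν) z) v)
    {C : ℝ} (hC : ∀ ν, ∫ z in Metric.ball (0 : CE ι) (r ν), H ν z * Real.exp (-φ ν z) ≤ C)
    {W : CE ι → ℝ} (hWm : AEStronglyMeasurable W (volume.restrict Ω))
    (hb : ∀ K ⊆ Ω, IsCompact K → ∃ M, ∀ᶠ ν in atTop, ∀ z ∈ K, φ ν z ≤ M)
    (hlim : ∀ z ∈ Ω, Tendsto (fun ν => Real.exp (φ ν z)) atTop (𝓝 (W z))) :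
    ∃ u : CE ι → ℂ, ContDiffOn ℝ ∞ u Ω ∧ (∀ z ∈ Ω, ∀ j, dzb j u z = g j z) ∧
      IntegrableOn (fun z => ‖u z‖ ^ 2 / W z) Ω ∧ ∫ z in Ω, ‖u z‖ ^ 2 / W z ≤ C := by
  have hC0 : 0 ≤ C := le_trans
    (setIntegral_nonneg Metric.isOpen_ball.measurableSet
      fun z hz => mul_nonneg (hH0 0 z hz) (Real.exp_pos _).le) (hC 0)
  have hDν : ∀ ν, DualEst (Metric.ball 0 (r ν)) g (fun z => Real.exp (φ ν z)) C := fun ν =>
    (dualEst_ball_smooth (hr ν) (hφ ν) (hpsh ν) (fun j => (hg j).mono (hsub ν))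
      (fun z hz => hclosed z (hsub ν hz)) (hH0 ν) (hHint ν) (hdom ν)).mono_const
      (fun z _ => (Real.exp_pos _).le) (hC ν)
  have hD : DualEst Ω g W C := by
    refine dualEst_limit hexh (fun ν => Metric.isOpen_ball) hDν (fun ν => ?_) (fun K hK hKc => ?_) hlim
    · exact (Real.continuous_exp.comp_continuousOn (hφ ν).continuousOn).aestronglyMeasurable
        Metric.isOpen_ball.measurableSet
    · obtain ⟨M, hM⟩ := hb K hK hKc
      refine ⟨Real.exp M, hM.mono fun ν hν z hz => ?_⟩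
      rw [abs_of_pos (Real.exp_pos _)]
      exact Real.exp_le_exp.2 (hν z hz)
  refine exists_smooth_solution hΩ hg (fun z hz => ?_) hWm (fun K hK hKc => ?_) hC0 hD
  · exact ge_of_tendsto' (hlim z hz) fun ν => (Real.exp_pos _).le
  · obtain ⟨M, hM⟩ := hb K hK hKc
    refine ⟨Real.exp M, fun z hz => le_of_tendsto (hlim z (hK hz)) ?_⟩
    exact hM.mono fun ν hν => Real.exp_le_exp.2 (hν z hz)

/-- a Hermitian lower bound `A ≥ κ G`, stated without inverse matrices: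
if `|⟨a,v⟩|² ≤ N · qf G v` for all `v` then `|⟨a,v⟩|² ≤ (N/κ) · qf A v`. -/
theorem dom_of_metric_lower_bound {A G : Matrix ι ι ℂ} {κ N : ℝ} (hκ : 0 < κ) (hN : 0 ≤ N)
    (hA : (A - ((κ : ℝ) : ℂ) • G).PosSemidef) (a : ι → ℂ)
    (ha : ∀ v : ι → ℂ, ‖∑ j, a j * conj (v j)‖ ^ 2 ≤ N * qf G v) (v : ι → ℂ) :
    ‖∑ j, a j * conj (v j)‖ ^ 2 ≤ (N / κ) * qf A v := by
  have h1 := qf_nonneg hA v
  rw [qf_sub, qf_smul_real] at h1
  have h2 : qf G v ≤ qf A v / κ := by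
    rw [le_div_iff₀ hκ]; linarith
  calc ‖∑ j, a j * conj (v j)‖ ^ 2 ≤ N * qf G v := ha v
    _ ≤ N * (qf A v / κ) := by gcongr
    _ = (N / κ) * qf A v := by ring

/-- a scalar lower bound for the Levi form gives an admissible `H`. -/
theorem dom_of_lower_bound {A : Matrix ι ι ℂ} {c : ℝ} (hc : 0 < c)
    (hA : (A - ((c : ℝ) : ℂ) • (1 : Matrix ι ι ℂ)).PosSemidef) (a v : ι → ℂ) :
    ‖∑ j, a j * conj (v j)‖ ^ 2 ≤ ((∑ j, ‖a j‖ ^ 2) / c) * qf A v := by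
  refine dom_of_metric_lower_bound hc (by positivity) hA a (fun w => ?_) v
  rw [qf_one]
  have h1 : ‖∑ j, a j * conj (w j)‖ ≤ ∑ j, ‖a j‖ * ‖w j‖ := by
    refine (norm_sum_le _ _).trans (le_of_eq ?_)
    refine Finset.sum_congr rfl fun j _ => ?_
    rw [norm_mul, RCLike.norm_conj]
  calc ‖∑ j, a j * conj (w j)‖ ^ 2 ≤ (∑ j, ‖a j‖ * ‖w j‖) ^ 2 := by gcongr
    _ ≤ (∑ j, ‖a j‖ ^ 2) * ∑ j, ‖w j‖ ^ 2 := Finset.sum_mul_sq_le_sq_mul_sq _ _ _

end Claimed.Agent.R316.B6E
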